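import Vale.Agent.Lib.P002.G1Defs
import Vale.Agent.Lib.P002.helper25.ChartComm

/-!
Pool job P002-G1-K: over a commutative ring, the chart pair has determinant one, its commutator
is upper triangular with the prescribed diagonal, and `B A w` is upper triangular with the
diagonal of `U`.
-/

namespace Vale.Agent.Lib.P002.H61

open Matrix
open Vale.Agent.Lib.P002

theorem g1_chart_ring {S : Type*} [CommRing S] {n : ℕ} (d : Fin n → S)
    (U Lo l b : Matrix (Fin n) (Fin n) S)
    (hU : ∀ i j, j < i → U i j = 0) (hLo : ∀ i j, i < j → Lo i j = 0)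
    (hl : ∀ i j, i < j → l i j = 0) (hl1 : ∀ i, l i i = 1) (hb : ∀ i j, j < i → b i j = 0)
    (hbd : ∀ i, b i i = d i * U i i * Lo (Fin.rev i) (Fin.rev i))
    (hq : U * Lo = l * b) (hdLo : Lo.det = 1) (hdU : U.det = (revM S n).det) :
    (revM S n * Lo.adjugate * revM S n * l.adjugate).det = 1 ∧ (U * Lo * revM S n).det = 1 ∧
    (∀ i j, j < i →
      cmm (revM S n * Lo.adjugate * revM S n * l.adjugate) (U * Lo * revM S n) i j = 0) ∧
    (∀ i, cmm (revM S n * Lo.adjugate * revM S n * l.adjugate) (U * Lo * revM S n) i i = d i) ∧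
    (∀ i j, j < i → ((U * Lo * revM S n) *
      (revM S n * Lo.adjugate * revM S n * l.adjugate) * revM S n) i j = 0) ∧
    (∀ i, ((U * Lo * revM S n) *
      (revM S n * Lo.adjugate * revM S n * l.adjugate) * revM S n) i i = U i i) := by
  have hw : revM S n * revM S n = 1 := revM_mul_revM n
  have hdw : (revM S n).det * (revM S n).det = 1 := det_revM_mul_self n
  have hdl : l.det = 1 := by
    rw [det_lt hl]
    exact Finset.prod_eq_one fun i _ => hl1 i
  have hdLa : Lo.adjugate.det = 1 := by rw [Matrix.det_adjugate, hdLo, one_pow]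
  have hdla : l.adjugate.det = 1 := by rw [Matrix.det_adjugate, hdl, one_pow]
  have hdA : (revM S n * Lo.adjugate * revM S n * l.adjugate).det = 1 := by
    rw [Matrix.det_mul, Matrix.det_mul, Matrix.det_mul, hdLa, hdla, mul_one, mul_one]
    exact hdw
  have hdB : (U * Lo * revM S n).det = 1 := by
    rw [Matrix.det_mul, Matrix.det_mul, hdLo, mul_one, hdU]
    exact hdw
  have huU : IsUnit U.det := by
    rw [hdU]
    exact isUnit_iff_exists_inv.2 ⟨_, hdw⟩
  have hUinv : U * U⁻¹ = 1 := Matrix.mul_nonsing_inv U huU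
  have : Invertible U := Matrix.invertibleOfIsUnitDet U huU
  have hUi : ∀ i j, j < i → U⁻¹ i j = 0 := by
    have hB : U.BlockTriangular id := fun i j h => hU i j h
    have h := Matrix.blockTriangular_inv_of_blockTriangular hB
    intro i j hij
    exact h hij
  have hLa : ∀ i j, i < j → Lo.adjugate i j = 0 := lt_adjugate hLo hdLo
  have hla : ∀ i j, i < j → l.adjugate i j = 0 := lt_adjugate hl hdl
  have hlad : ∀ i, l.adjugate i i = 1 := by
    intro i
    have h := lt_adjugate_diag hl hdl i
    rw [hl1 i, mul_one] at h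
    exact h
  -- conjugates by the reversal matrix of lower triangular matrices are upper triangular
  have hconj : ∀ X : Matrix (Fin n) (Fin n) S, (∀ i j, i < j → X i j = 0) →
      ∀ i j, j < i → (revM S n * X * revM S n) i j = 0 := by
    intro X hX i j hij
    rw [revM_conj]
    exact hX _ _ (Fin.rev_lt_rev.2 hij)
  have hcomm := H25.g1_chart_comm U Lo l b U⁻¹ Lo.adjugate l.adjugate hUinv
    (mul_adjugate_of_det hdLo) (mul_adjugate_of_det hdl) hq hdA hdB
  have hX1 := hconj Lo.adjugate hLa
  have hX3 := hconj l hl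
  have hX5 := hconj l.adjugate hla
  have hP1 := ut_mul hX1 hb
  have hP2 := ut_mul hP1 hX3
  have hUUd : ∀ i, U i i * U⁻¹ i i = 1 := by
    intro i
    rw [← ut_mul_diag hU hUi i, hUinv, Matrix.one_apply_eq]
  have hBA : (U * Lo * revM S n) * (revM S n * Lo.adjugate * revM S n * l.adjugate) * revM S n
      = U * (revM S n * l.adjugate * revM S n) := by
    have hww : ∀ X : Matrix (Fin n) (Fin n) S, revM S n * (revM S n * X) = X := by
      intro X
      rw [← Matrix.mul_assoc, hw, Matrix.one_mul]
    have hLL : ∀ X : Matrix (Fin n) (Fin n) S, Lo * (Lo.adjugate * X) = X := by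
      intro X
      rw [← Matrix.mul_assoc, mul_adjugate_of_det hdLo, Matrix.one_mul]
    simp only [Matrix.mul_assoc]
    rw [hww, hLL]
  refine ⟨hdA, hdB, ?_, ?_, ?_, ?_⟩
  · rw [hcomm]
    exact ut_mul hP2 hUi
  · intro i
    rw [hcomm, ut_mul_diag hP2 hUi, ut_mul_diag hP1 hX3, ut_mul_diag hX1 hb, revM_conj, revM_conj,
      hbd i, hl1]
    have h1 := lt_adjugate_diag hLo hdLo (Fin.rev i)
    have h2 := hUUd i
    linear_combination (d i * U i i * U⁻¹ i i) * h1 + d i * h2
  · rw [hBA]
    exact ut_mul hU hX5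
  · intro i
    rw [hBA, ut_mul_diag hU hX5, revM_conj, hlad, mul_one]

end Vale.Agent.Lib.P002.H61
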